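import Vale.Agent.P223.H959.Sharp
import Vale.Agent.P223.H959.Zero

/-! Positive canonical bundle: the Kähler-Einstein metric in the real charts. -/

open scoped Manifold ContDiff ComplexOrder Matrix Topology
open MeasureTheory Filter

namespace Vale.Agent.P223.H509

open Vale.Agent.P272.K Vale.Agent.P272.K.INT Vale.Agent.P223.H959

section
variable {m : ℕ} {X : Type} [TopologicalSpace X] [ChartedSpace (Cm m) X]
  [IsManifold 𝓘(ℂ, Cm m) ω X]

/-- `i∂∂̄ψ + t w` is a twisted Kähler-Einstein metric, for every `t` for which the class is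
positive -/
theorem ke_gen (hAY : AubinYau m X) {w : Chart m X → Cm m → Matrix (Fin m) (Fin m) ℂ}
    (hw : IsKahler w) (t : ℝ) {φ0 : Chart m X → Cm m → ℝ} (hφ0 : IsCanonicalMetric φ0)
    (hpos : ∀ e x, At e x → (cHess (φ0 e) (e x) + (t : ℂ) • w e (e x)).PosDef) :
    ∃ ψ : Chart m X → Cm m → ℝ, IsCanonicalMetric ψ ∧
      (∀ e x, At e x → (cHess (ψ e) (e x) + (t : ℂ) • w e (e x)).PosDef) ∧
      ∀ e x, At e x → -cHess (fun z => Real.log (cHess (ψ e) z + (t : ℂ) • w e z).det.re) (e x) +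
        (cHess (ψ e) (e x) + (t : ℂ) • w e (e x)) = (t : ℂ) • w e (e x) := by
  set χ : Chart m X → Cm m → Matrix (Fin m) (Fin m) ℂ :=
    fun e z => cHess (φ0 e) z + (t : ℂ) • w e z with hχdef
  have hχ : IsKahler χ := isKahler_twist hφ0 hw t hpos
  obtain ⟨u, hu, hupos, heq⟩ := hAY χ hχ (ricPot χ φ0) (smoothFn_ricPot hχ.toIsHermitian hφ0)
  have hsm : ∀ e x, At e x → ContDiffAt ℝ ∞ (fun z => φ0 e z + u (e.symm z)) (e x) :=
    fun e x hx => (hφ0.smooth e x hx).add (hu e x hx)
  have hcan : IsCanonicalMetric fun e z => φ0 e z + u (e.symm z) := by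
    refine ⟨hsm, fun e e' x hx hx' => ?_⟩
    simp only [hx.left_inv, hx'.left_inv]
    rw [hφ0.change e e' x hx hx']; ring
  have htwo : ∀ {f : Cm m → ℝ} {z}, ContDiffAt ℝ ∞ f z → ContDiffAt ℝ 2 f z :=
    fun h => h.of_le (by exact WithTop.coe_le_coe.2 le_top)
  have hcH : ∀ e x, At e x → cHess (fun z => φ0 e z + u (e.symm z)) (e x) +
      (t : ℂ) • w e (e x) = addH χ u e (e x) := by
    intro e x hx
    rw [cHess_add (htwo (hφ0.smooth e x hx)) (htwo (hu e x hx))]
    simp only [addH, hχdef]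
    abel
  refine ⟨fun e z => φ0 e z + u (e.symm z), hcan, fun e x hx => ?_, fun e x hx => ?_⟩
  · rw [hcH e x hx]; exact hupos e x hx
  · have h1 : (fun z => Real.log (cHess (fun z => φ0 e z + u (e.symm z)) z +
        (t : ℂ) • w e z).det.re) =ᶠ[𝓝 (e x)] fun z => φ0 e z + u (e.symm z) := by
      filter_upwards [hx.nhds_target] with z hz
      have hz' := At.of_target hx.1 hz
      have h2 := hcH e _ hz'
      have h3 := heq e _ hz'
      have h4 := ricPot_eq hχ.toIsHermitian hφ0 hz'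
      rw [e.right_inv hz] at h2 h3 h4
      rw [h2]
      rw [h4] at h3
      linarith
    rw [cHess_congr h1]
    abel

end

/-- the scalar curvature of an Einstein metric -/
theorem scal_of_ric {n : ℕ} {g : (Fin n → ℝ) → Matrix (Fin n) (Fin n) ℝ} {x : Fin n → ℝ}
    (hp : (g x).PosDef) (h : K.ric g x = -g x) : K.scal g x = -n := by
  have h1 : K.scal g x = -((g x)⁻¹ * g x).trace := by
    unfold K.scal
    rw [h, Matrix.trace, ← Finset.sum_neg_distrib]
    refine Finset.sum_congr rfl fun i _ => ?_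
    rw [Matrix.diag_apply, Matrix.mul_apply, ← Finset.sum_neg_distrib]
    refine Finset.sum_congr rfl fun j _ => ?_
    have h2 : g x j i = g x i j := by
      have := hp.1.apply i j
      simpa using this
    rw [Matrix.neg_apply, h2]
    ring
  rw [h1, Matrix.nonsing_inv_mul _ ((Matrix.isUnit_iff_isUnit_det _).1 hp.isUnit),
    Matrix.trace_one, Fintype.card_fin]

section
variable {m : ℕ} {X : Type} [TopologicalSpace X] [T2Space X] [CompactSpace X]
  [ChartedSpace (Cm m) X] [IsManifold 𝓘(ℂ, Cm m) ω X]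

/-- The Kähler-Einstein metric, in the real charts, and its volume. -/
theorem ke_metric (hB : Blocks) (hTot : SpecTot) (hm : 1 ≤ m) [Nonempty X] [MeasurableSpace X]
    [BorelSpace X] {w : Chart m X → Cm m → Matrix (Fin m) (Fin m) ℂ} (hw : IsKahler w)
    {φ1 : Chart m X → Cm m → ℝ} (hφ1 : IsCanonicalMetric φ1)
    (hpos1 : ∀ e x, At e x → (cHess (φ1 e) (e x)).PosDef)
    {φ : Chart m X → Cm m → ℝ} (hφ : IsCanonicalMetric φ) {I : ℝ}
    (hI : IsIntegral (fun e z => (cHess (φ e) z).det.re) I) :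
    0 < I ∧ ∃ g0 μ0, K.Herm (stdJ m) (realAtlas m X) g0 ∧ K.Kah (stdJ m) (realAtlas m X) g0 ∧
      (∀ a p x, K.At (realAtlas m X a) p x → K.ric (g0 a) x = -g0 a x) ∧
      K.Vol (realAtlas m X) g0 μ0 ∧
      K.I (realAtlas m X) g0 μ0 = ENNReal.ofReal (2 ^ m * I) := by
  have hz : ∀ M N : Matrix (Fin m) (Fin m) ℂ, M + ((0 : ℝ) : ℂ) • N = M := by
    intro M N
    rw [Complex.ofReal_zero, zero_smul, add_zero]
  obtain ⟨ψ, hψ, hpos, heq⟩ := ke_gen (Vale.Agent.P272.K.aubinYau m X) hw 0 hφ1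
    (fun e x hx => by rw [hz]; exact hpos1 e x hx)
  have hχ := Vale.Agent.P272.K.isKahler_twist hψ hw 0 hpos
  set χ : Chart m X → Cm m → Matrix (Fin m) (Fin m) ℂ :=
    fun e z => cHess (ψ e) z + ((0 : ℝ) : ℂ) • w e z with hχd
  have hherm := hB.herm m X χ hχ.toIsHermitian
  have hwc := P272.K.INT.IsKahler.isClosedForm hw
  have hdens := ((isClosedForm_canonical hψ).add (hwc.smul ((0 : ℝ) : ℂ))).isDensity
  have h0 : I = PP φ w 0 := by
    rw [← intX_eq_of_isIntegral hI]
    unfold PP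
    refine intX_congr fun e x _ => ?_
    rw [hz]
  have hint : IsIntegral (fun e z => (χ e z).det.re) I := by
    rw [h0, PP_eq hφ hψ hwc]
    exact hdens.isIntegral
  have hIpos : 0 < I := by
    rw [← intX_eq_of_isIntegral hint]
    exact intX_pos hdens fun e x hx => (posDef_det_re (hpos e x hx)).1
  obtain ⟨μ, hμ⟩ := hB.vol _ (stdJ m) X (realAtlas m X) (realG χ) (hB.atl m X) hherm
  have hric : ∀ a p x, K.At (realAtlas m X a) p x → K.ric (realG χ a) x = -realG χ a x := by
    intro a p x hx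
    have hp : p ∈ (chartAt (Cm m) a).source := by
      have := hx.1
      simpa [realAtlas] using this
    have hx2 : (toReal m).symm x = chartAt (Cm m) a p := by
      rw [← hx.2]
      exact (toReal m).symm_apply_apply _
    have h1 := heq (chartAt (Cm m) a) p ⟨chart_mem_atlas _ a, hp⟩
    have key : realG χ a x + K.ric (realG χ a) x = (0 : ℝ) • realG w a x := by
      rw [hB.ric m X χ hχ a p x hx]
      unfold realG
      rw [hx2, ← hB.alg.add, ← hB.alg.smul, ← h1]
      exact congrArg realM (add_comm _ _)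
    rw [zero_smul] at key
    exact eq_neg_of_add_eq_zero_right key
  refine ⟨hIpos, realG χ, μ, hherm, hB.kah m X χ hχ, hric, hμ, ?_⟩
  have hone : ∀ p : X, ENNReal.ofReal ((max 0 (-K.scal (realG χ p) (realAtlas m X p p)) /
      ((m + m : ℕ) : ℝ)) ^ (((m + m : ℕ) : ℝ) / 2)) = 1 := by
    intro p
    obtain ⟨x, hx⟩ := (hB.atl m X p).1
    have hx' : K.At (realAtlas m X p) p (realAtlas m X p p) := ⟨hx.1, rfl⟩
    have h2 := scal_of_ric (hherm p p p _ _ hx' hx').2.1 (hric p p _ hx')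
    have h3 : (0 : ℝ) < ((m + m : ℕ) : ℝ) := by
      exact_mod_cast (by omega : 0 < m + m)
    rw [h2, neg_neg, max_eq_right h3.le, div_self h3.ne', Real.one_rpow, ENNReal.ofReal_one]
  unfold K.I
  simp_rw [hone]
  rw [lintegral_const, one_mul]
  exact hTot m X χ μ I hχ.toIsHermitian hμ hint

end

section
variable {m : ℕ} {X : Type} [TopologicalSpace X] [ChartedSpace (Cm m) X]

/-- a positive canonical bundle is nef -/
theorem nef_of_pos {w : Chart m X → Cm m → Matrix (Fin m) (Fin m) ℂ} (hw : IsKahler w)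
    {φ1 : Chart m X → Cm m → ℝ} (hφ1 : IsCanonicalMetric φ1)
    (hpos1 : ∀ e x, At e x → (cHess (φ1 e) (e x)).PosDef) : NefCanonical w 0 := by
  intro ε hε
  refine ⟨φ1, hφ1, fun e x hx => ?_⟩
  rw [zero_add]
  exact (hpos1 e x hx).posSemidef.add (posDef_ofReal_smul (hw.posDef e x hx) hε).posSemidef

end

end Vale.Agent.P223.H509
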